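import Vale.Agent.P328.Final

namespace Vale.Agent.Results.P328.FPRAS

open Vale.Agent.P328

theorem result : ∃ (num den : List Bool → List Bool) (P : Polynomial ℕ),
    PolyTime num ∧ PolyTime den ∧
    ∀ (m n : ℕ) (r : Fin m → ℕ) (c : Fin n → ℕ), 1 ≤ m → 1 ≤ n → ∑ i, r i = ∑ j, c j →
      ∀ ε δ : ℚ, 0 < ε → ε < 1 → 0 < δ → δ < 1 →
      ∀ k l s : ℕ, k = ⌈1 / ε⌉₊ → l = Nat.clog 2 ⌈1 / δ⌉₊ → s = P.eval ((code r c).length + k + l) →
        (1 - δ) * 2 ^ s ≤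
          ({ρ : Fin s → Bool | Approx ε (tables r c) (num (input k l (code r c) (List.ofFn ρ)))
            (den (input k l (code r c) (List.ofFn ρ)))}.ncard : ℚ) := by
  obtain ⟨P, hP⟩ := fpras
  refine ⟨numF, denF, P, poly_of pt_out.1, poly_of pt_out.2, ?_⟩
  intro m n r c h1 _ h3 ε δ e0 _ d0 _ k l s hk hl hs
  have k1 : 1 / ε ≤ k := hk ▸ Nat.le_ceil _
  have k0 : (0 : ℚ) < k := lt_of_lt_of_le (by positivity) k1
  have k2 : 1 / (k : ℚ) ≤ ε := by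
    rw [div_le_iff₀ k0]; rw [div_le_iff₀ e0] at k1; linarith
  have l1 : 1 / δ ≤ 2 ^ l := by
    have : ⌈1 / δ⌉₊ ≤ 2 ^ l := hl ▸ Nat.le_pow_clog (by norm_num) _
    exact (Nat.le_ceil _).trans (by exact_mod_cast this)
  have l2 : 1 / 2 ^ l ≤ δ := by
    rw [div_le_iff₀ (by positivity)]; rw [div_le_iff₀ d0] at l1; linarith
  have l3 : (1 / 2 ^ l : ℝ) ≤ δ := by simpa using (Rat.cast_le (K := ℝ)).2 l2
  have := hP m n r c h1 h3 k l ε (by exact_mod_cast k0) k2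
  subst hs
  refine (Rat.cast_le (K := ℝ)).1 ?_
  push_cast
  exact le_trans (mul_le_mul_of_nonneg_right (by linarith) (by positivity)) this

end Vale.Agent.Results.P328.FPRAS
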